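import Crest.Agent.Helper17.SW.TwoPairSpec
import Crest.Agent.Helper89.SW.TwoPair

set_option autoImplicit false

namespace Crest.Agent.Helper65.Dia

open Finset Crest.Agent.Helper17.SW

/-- the six blocks of total `2`, as a sum. -/
theorem sum_blk (F : Blk4 → ℝ) :
    ∑ μ : Blk4, (if μ.tot = 2 then F μ else 0) =
      F (true, false, false, true) + F (false, true, true, false) + F (true, true, false, false)
        + F (false, false, true, true) + F (true, false, true, false)
        + F (false, true, false, true) := by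
  simp only [Fintype.sum_prod_type, Fintype.sum_bool, Blk4.tot]
  simp
  ring

theorem kap_le (μ : Blk4) : μ.kap = 1 ∨ μ.kap = 2 ∨ μ.kap = 0 := by
  obtain ⟨a, b, c, d⟩ := μ
  cases a <;> cases c <;> simp [Blk4.kap]

theorem rho_le (μ : Blk4) : μ.rho = 1 ∨ μ.rho = 2 ∨ μ.rho = 0 := by
  obtain ⟨a, b, c, d⟩ := μ
  cases a <;> cases b <;> simp [Blk4.rho]

theorem ctr_kap {μ : Blk4} (h : μ.ctr) : μ.kap = 1 := by
  rcases h with h | h <;> subst h <;> rfl

theorem ctr_rho {μ : Blk4} (h : μ.ctr) : μ.rho = 1 := by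
  rcases h with h | h <;> subst h <;> rfl

section Transport

variable {X L L' 𝒜 𝒞 : Type*} [DecidableEq L] [DecidableEq L'] [DecidableEq 𝒜] [DecidableEq 𝒞]
  {Φ : Finset X} {ℓ : X → L} {ℓ' : X → L'} {M : X → Blk4} {A : X → 𝒜} {C : X → 𝒞}
  {As : ℕ → Finset 𝒜} {Cs : ℕ → Finset 𝒞}

/-- the coordinates of a point of the fibre. -/
theorem mem_coords (hco : Coords Φ ℓ ℓ' M A C 2 As Cs) {x : X} (hx : x ∈ Φ) :
    (M x).tot = 2 ∧ A x ∈ As (M x).rho ∧ C x ∈ Cs (M x).kap :=
  (hco.img (M x) (A x) (C x)).1 ⟨x, hx, rfl, rfl, rfl⟩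

/-- **Decomposition of a sum over the fibre** along the coordinates `(M, A, C)`. -/
theorem dec (hco : Coords Φ ℓ ℓ' M A C 2 As Cs) (G : Blk4 → 𝒜 → 𝒞 → ℝ) :
    ∑ x ∈ Φ, G (M x) (A x) (C x) =
      ∑ μ : Blk4, (if μ.tot = 2 then ∑ a ∈ As μ.rho, ∑ c ∈ Cs μ.kap, G μ a c else 0) := by
  classical
  rw [← Finset.sum_fiberwise Φ M (fun x => G (M x) (A x) (C x))]
  refine Finset.sum_congr rfl (fun μ _ => ?_)
  split_ifs with hμ
  · have himg : (Φ.filter (fun x => M x = μ)).image (fun x => (A x, C x)) =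
        As μ.rho ×ˢ Cs μ.kap := by
      ext ⟨a, c⟩
      simp only [Finset.mem_image, Finset.mem_filter, Finset.mem_product, Prod.mk.injEq]
      constructor
      · rintro ⟨x, ⟨hx, hM⟩, hA, hC⟩
        exact ((hco.img μ a c).1 ⟨x, hx, hM, hA, hC⟩).2
      · rintro ⟨ha, hc⟩
        obtain ⟨x, hx, hM, hA, hC⟩ := (hco.img μ a c).2 ⟨hμ, ha, hc⟩
        exact ⟨x, ⟨hx, hM⟩, hA, hC⟩
    rw [← Finset.sum_product', ← himg, Finset.sum_image]
    · refine Finset.sum_congr rfl (fun x hx => ?_)
      rw [(Finset.mem_filter.1 hx).2]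
    · intro x hx y hy hxy
      have hx' := Finset.mem_filter.1 hx
      have hy' := Finset.mem_filter.1 hy
      have h2 := Prod.mk.inj hxy
      exact hco.inj x hx'.1 y hy'.1 (hx'.2.trans hy'.2.symm) h2.1 h2.2
  · apply Finset.sum_eq_zero
    intro x hx
    exfalso
    have hx' := Finset.mem_filter.1 hx
    have := (mem_coords hco hx'.1).1
    rw [hx'.2] at this
    exact hμ this

/-- the decomposition, written out over the six blocks. -/
theorem dec6 (hco : Coords Φ ℓ ℓ' M A C 2 As Cs) (G : Blk4 → 𝒜 → 𝒞 → ℝ) :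
    ∑ x ∈ Φ, G (M x) (A x) (C x) =
      ∑ a ∈ As 1, ∑ c ∈ Cs 1, G (true, false, false, true) a c
        + ∑ a ∈ As 1, ∑ c ∈ Cs 1, G (false, true, true, false) a c
        + ∑ a ∈ As 2, ∑ c ∈ Cs 1, G (true, true, false, false) a c
        + ∑ a ∈ As 0, ∑ c ∈ Cs 1, G (false, false, true, true) a c
        + ∑ a ∈ As 1, ∑ c ∈ Cs 2, G (true, false, true, false) a c
        + ∑ a ∈ As 1, ∑ c ∈ Cs 0, G (false, true, false, true) a c := by
  rw [dec hco G, sum_blk]
  rfl

/-- the function `f` in coordinates. -/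
noncomputable def gf (Φ : Finset X) (M : X → Blk4) (A : X → 𝒜) (C : X → 𝒞) (f : X → ℝ)
    (μ : Blk4) (a : 𝒜) (c : 𝒞) : ℝ :=
  @dite ℝ (∃ x ∈ Φ, M x = μ ∧ A x = a ∧ C x = c) (Classical.propDecidable _)
    (fun h => f h.choose) (fun _ => 0)

theorem gf_eq (hco : Coords Φ ℓ ℓ' M A C 2 As Cs) (f : X → ℝ) {x : X} (hx : x ∈ Φ) :
    gf Φ M A C f (M x) (A x) (C x) = f x := by
  have h : ∃ y ∈ Φ, M y = M x ∧ A y = A x ∧ C y = C x := ⟨x, hx, rfl, rfl, rfl⟩
  unfold gf
  rw [dif_pos h]
  have hs := h.choose_spec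
  rw [hco.inj _ hs.1 x hx hs.2.1 hs.2.2.1 hs.2.2.2]

/-- **Class sums of the first key** (`ℓ`: same `(kap, C)`). -/
theorem cls_sum (hco : Coords Φ ℓ ℓ' M A C 2 As Cs) {F : X → ℝ} {G : Blk4 → 𝒜 → 𝒞 → ℝ}
    (hFG : ∀ y ∈ Φ, F y = G (M y) (A y) (C y)) {x : X} (hx : x ∈ Φ) :
    ∑ y ∈ cls Φ ℓ x, F y =
      if (M x).kap = 1 then
        ∑ a ∈ As 1, G (true, false, false, true) a (C x)
          + ∑ a ∈ As 1, G (false, true, true, false) a (C x)
          + ∑ a ∈ As 2, G (true, true, false, false) a (C x)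
          + ∑ a ∈ As 0, G (false, false, true, true) a (C x)
      else if (M x).kap = 2 then ∑ a ∈ As 1, G (true, false, true, false) a (C x)
      else ∑ a ∈ As 1, G (false, true, false, true) a (C x) := by
  have hc := (mem_coords hco hx).2.2
  have h1 : ∑ y ∈ cls Φ ℓ x, F y = ∑ y ∈ Φ,
      if (M y).kap = (M x).kap ∧ C y = C x then G (M y) (A y) (C y) else 0 := by
    rw [cls, Finset.sum_filter]
    refine Finset.sum_congr rfl (fun y hy => ?_)
    have hiff := hco.key y hy x hx
    by_cases h : ℓ y = ℓ x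
    · rw [if_pos h, if_pos (hiff.1 h), hFG y hy]
    · rw [if_neg h, if_neg (fun h' => h (hiff.2 h'))]
  rw [h1]
  refine (dec6 hco (fun μ a c => if μ.kap = (M x).kap ∧ c = C x then G μ a c else 0)).trans ?_
  rcases kap_le (M x) with hk | hk | hk <;> rw [hk] at hc ⊢ <;>
    simp [Blk4.kap, Finset.sum_ite_eq', hc]

/-- **Class sums of the second key** (`ℓ'`: same `(rho, A)`). -/
theorem cls_sum' (hco : Coords Φ ℓ ℓ' M A C 2 As Cs) {F : X → ℝ} {G : Blk4 → 𝒜 → 𝒞 → ℝ}
    (hFG : ∀ y ∈ Φ, F y = G (M y) (A y) (C y)) {x : X} (hx : x ∈ Φ) :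
    ∑ y ∈ cls Φ ℓ' x, F y =
      if (M x).rho = 1 then
        ∑ c ∈ Cs 1, G (true, false, false, true) (A x) c
          + ∑ c ∈ Cs 1, G (false, true, true, false) (A x) c
          + ∑ c ∈ Cs 2, G (true, false, true, false) (A x) c
          + ∑ c ∈ Cs 0, G (false, true, false, true) (A x) c
      else if (M x).rho = 2 then ∑ c ∈ Cs 1, G (true, true, false, false) (A x) c
      else ∑ c ∈ Cs 1, G (false, false, true, true) (A x) c := by
  have ha := (mem_coords hco hx).2.1
  have h1 : ∑ y ∈ cls Φ ℓ' x, F y = ∑ y ∈ Φ,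
      if (M y).rho = (M x).rho ∧ A y = A x then G (M y) (A y) (C y) else 0 := by
    rw [cls, Finset.sum_filter]
    refine Finset.sum_congr rfl (fun y hy => ?_)
    have hiff := hco.key' y hy x hx
    by_cases h : ℓ' y = ℓ' x
    · rw [if_pos h, if_pos (hiff.1 h), hFG y hy]
    · rw [if_neg h, if_neg (fun h' => h (hiff.2 h'))]
  rw [h1]
  refine (dec6 hco (fun μ a c => if μ.rho = (M x).rho ∧ a = A x then G μ a c else 0)).trans ?_
  rcases rho_le (M x) with hk | hk | hk <;> rw [hk] at ha ⊢ <;>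
    simp [Blk4.rho, Finset.sum_ite_irrel, Finset.sum_ite_eq', ha]

theorem cls_card (hco : Coords Φ ℓ ℓ' M A C 2 As Cs) {x : X} (hx : x ∈ Φ) :
    ((cls Φ ℓ x).card : ℝ) =
      if (M x).kap = 1 then ((As 1).card : ℝ) + (As 1).card + (As 2).card + (As 0).card
      else (As 1).card := by
  have h := cls_sum hco (F := fun _ => (1 : ℝ)) (G := fun _ _ _ => 1) (fun _ _ => rfl) hx
  rw [Finset.card_eq_sum_ones, Nat.cast_sum, Nat.cast_one, h]
  simp

theorem cls_card' (hco : Coords Φ ℓ ℓ' M A C 2 As Cs) {x : X} (hx : x ∈ Φ) :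
    ((cls Φ ℓ' x).card : ℝ) =
      if (M x).rho = 1 then ((Cs 1).card : ℝ) + (Cs 1).card + (Cs 2).card + (Cs 0).card
      else (Cs 1).card := by
  have h := cls_sum' hco (F := fun _ => (1 : ℝ)) (G := fun _ _ _ => 1) (fun _ _ => rfl) hx
  rw [Finset.card_eq_sum_ones, Nat.cast_sum, Nat.cast_one, h]
  simp

/-- the class average of the first key, in coordinates. -/
noncomputable def qV (As : ℕ → Finset 𝒜) (g : Blk4 → 𝒜 → 𝒞 → ℝ) (μ : Blk4) (c : 𝒞) : ℝ :=
  if μ.kap = 1 then
    (∑ a ∈ As 1, g (true, false, false, true) a c + ∑ a ∈ As 1, g (false, true, true, false) a c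
        + ∑ a ∈ As 2, g (true, true, false, false) a c
        + ∑ a ∈ As 0, g (false, false, true, true) a c) /
      (((As 1).card : ℝ) + (As 1).card + (As 2).card + (As 0).card)
  else if μ.kap = 2 then (∑ a ∈ As 1, g (true, false, true, false) a c) / ((As 1).card : ℝ)
  else (∑ a ∈ As 1, g (false, true, false, true) a c) / ((As 1).card : ℝ)

/-- the class average of the second key, in coordinates. -/
noncomputable def qH (Cs : ℕ → Finset 𝒞) (g : Blk4 → 𝒜 → 𝒞 → ℝ) (μ : Blk4) (a : 𝒜) : ℝ :=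
  if μ.rho = 1 then
    (∑ c ∈ Cs 1, g (true, false, false, true) a c + ∑ c ∈ Cs 1, g (false, true, true, false) a c
        + ∑ c ∈ Cs 2, g (true, false, true, false) a c
        + ∑ c ∈ Cs 0, g (false, true, false, true) a c) /
      (((Cs 1).card : ℝ) + (Cs 1).card + (Cs 2).card + (Cs 0).card)
  else if μ.rho = 2 then (∑ c ∈ Cs 1, g (true, true, false, false) a c) / ((Cs 1).card : ℝ)
  else (∑ c ∈ Cs 1, g (false, false, true, true) a c) / ((Cs 1).card : ℝ)

theorem avg_eq (hco : Coords Φ ℓ ℓ' M A C 2 As Cs) (f : X → ℝ) {x : X} (hx : x ∈ Φ) :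
    avg Φ ℓ f x = qV As (gf Φ M A C f) (M x) (C x) := by
  rw [avg, cls_sum hco (fun y hy => (gf_eq hco f hy).symm) hx, cls_card hco hx, qV]
  split_ifs <;> rfl

theorem avg_eq' (hco : Coords Φ ℓ ℓ' M A C 2 As Cs) (f : X → ℝ) {x : X} (hx : x ∈ Φ) :
    avg Φ ℓ' f x = qH Cs (gf Φ M A C f) (M x) (A x) := by
  rw [avg, cls_sum' hco (fun y hy => (gf_eq hco f hy).symm) hx, cls_card' hco hx, qH]
  split_ifs <;> rfl

theorem ctr_sum (hco : Coords Φ ℓ ℓ' M A C 2 As Cs) (f : X → ℝ) {x : X} (hx : x ∈ Φ)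
    (hk : (M x).kap = 1) :
    ∑ y ∈ (cls Φ ℓ x).filter (fun y => (M y).ctr), f y =
      ∑ a ∈ As 1, gf Φ M A C f (true, false, false, true) a (C x)
        + ∑ a ∈ As 1, gf Φ M A C f (false, true, true, false) a (C x) := by
  rw [Finset.sum_filter, cls_sum hco (F := fun y => if (M y).ctr then f y else 0)
    (G := fun μ a c => if μ.ctr then gf Φ M A C f μ a c else 0)
    (fun y hy => by simp only [gf_eq hco f hy]) hx, if_pos hk]
  simp [Blk4.ctr, Blk4.cp, Blk4.cm]

theorem ctr_card (hco : Coords Φ ℓ ℓ' M A C 2 As Cs) {x : X} (hx : x ∈ Φ)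
    (hk : (M x).kap = 1) :
    (((cls Φ ℓ x).filter (fun y => (M y).ctr)).card : ℝ) = (As 1).card + (As 1).card := by
  have h := cls_sum hco (F := fun y => if (M y).ctr then (1 : ℝ) else 0)
    (G := fun μ _ _ => if μ.ctr then 1 else 0) (fun _ _ => rfl) hx
  rw [if_pos hk] at h
  rw [Finset.card_eq_sum_ones, Nat.cast_sum, Nat.cast_one, Finset.sum_filter, h]
  simp [Blk4.ctr, Blk4.cp, Blk4.cm]

theorem ctr_sum' (hco : Coords Φ ℓ ℓ' M A C 2 As Cs) (f : X → ℝ) {x : X} (hx : x ∈ Φ)
    (hk : (M x).rho = 1) :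
    ∑ y ∈ (cls Φ ℓ' x).filter (fun y => (M y).ctr), f y =
      ∑ c ∈ Cs 1, gf Φ M A C f (true, false, false, true) (A x) c
        + ∑ c ∈ Cs 1, gf Φ M A C f (false, true, true, false) (A x) c := by
  rw [Finset.sum_filter, cls_sum' hco (F := fun y => if (M y).ctr then f y else 0)
    (G := fun μ a c => if μ.ctr then gf Φ M A C f μ a c else 0)
    (fun y hy => by simp only [gf_eq hco f hy]) hx, if_pos hk]
  simp [Blk4.ctr, Blk4.cp, Blk4.cm]

theorem ctr_card' (hco : Coords Φ ℓ ℓ' M A C 2 As Cs) {x : X} (hx : x ∈ Φ)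
    (hk : (M x).rho = 1) :
    (((cls Φ ℓ' x).filter (fun y => (M y).ctr)).card : ℝ) = (Cs 1).card + (Cs 1).card := by
  have h := cls_sum' hco (F := fun y => if (M y).ctr then (1 : ℝ) else 0)
    (G := fun μ _ _ => if μ.ctr then 1 else 0) (fun _ _ => rfl) hx
  rw [if_pos hk] at h
  rw [Finset.card_eq_sum_ones, Nat.cast_sum, Nat.cast_one, Finset.sum_filter, h]
  simp [Blk4.ctr, Blk4.cp, Blk4.cm]

/-- the switch energy of the fibre, in coordinates. -/
theorem swC_eq (hco : Coords Φ ℓ ℓ' M A C 2 As Cs) (f : X → ℝ) :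
    swC Φ M A C f = ∑ a ∈ As 1, ∑ c ∈ Cs 1,
      (gf Φ M A C f (true, false, false, true) a c
        - gf Φ M A C f (false, true, true, false) a c) ^ 2 := by
  unfold swC
  have inner : ∀ x ∈ Φ, (∑ y ∈ Φ,
      if M x = Blk4.cp ∧ M y = Blk4.cm ∧ A y = A x ∧ C y = C x then (f x - f y) ^ 2 else 0) =
      if M x = Blk4.cp then
        (gf Φ M A C f (M x) (A x) (C x) - gf Φ M A C f (false, true, true, false) (A x) (C x)) ^ 2
      else 0 := by
    intro x hx
    have h1 : (∑ y ∈ Φ,
        if M x = Blk4.cp ∧ M y = Blk4.cm ∧ A y = A x ∧ C y = C x then (f x - f y) ^ 2 else 0) =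
        ∑ y ∈ Φ, if M x = Blk4.cp ∧ M y = Blk4.cm ∧ A y = A x ∧ C y = C x then
          (f x - gf Φ M A C f (M y) (A y) (C y)) ^ 2 else 0 :=
      Finset.sum_congr rfl (fun y hy => by rw [gf_eq hco f hy])
    rw [h1]
    refine (dec6 hco (fun μ a c => if M x = Blk4.cp ∧ μ = Blk4.cm ∧ a = A x ∧ c = C x then
          (f x - gf Φ M A C f μ a c) ^ 2 else 0)).trans ?_
    by_cases hM : M x = Blk4.cp
    · have hmem := mem_coords hco hx
      rw [hM] at hmem
      have ha : A x ∈ As 1 := hmem.2.1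
      have hc : C x ∈ Cs 1 := hmem.2.2
      rw [if_pos hM, gf_eq hco f hx]
      simp [hM, Blk4.cp, Blk4.cm, ite_and, Finset.sum_ite_irrel, Finset.sum_ite_eq', ha, hc]
    · simp [hM]
  rw [Finset.sum_congr rfl inner]
  refine (dec6 hco (fun μ a c => if μ = Blk4.cp then
        (gf Φ M A C f μ a c - gf Φ M A C f (false, true, true, false) a c) ^ 2 else 0)).trans ?_
  simp [Blk4.cp]

/-- the first Bad term of the fibre, in coordinates. -/
theorem badC_eq (hco : Coords Φ ℓ ℓ' M A C 2 As Cs) (f : X → ℝ) :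
    badC Φ ℓ (fun x => (M x).ctr) f = 2 * ∑ a ∈ As 1, ∑ c ∈ Cs 1,
      ((∑ a' ∈ As 1, gf Φ M A C f (true, false, false, true) a' c
          + ∑ a' ∈ As 1, gf Φ M A C f (false, true, true, false) a' c) /
            (((As 1).card : ℝ) + (As 1).card)
        - qV As (gf Φ M A C f) (true, false, false, true) c) ^ 2 := by
  unfold badC
  rw [Finset.sum_filter]
  have pt : ∀ x ∈ Φ, (if (M x).ctr then
      ((∑ y ∈ (cls Φ ℓ x).filter (fun y => (M y).ctr), f y) /
          (((cls Φ ℓ x).filter (fun y => (M y).ctr)).card : ℝ) - avg Φ ℓ f x) ^ 2 else 0) =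
      if (M x).ctr then
        ((∑ a' ∈ As 1, gf Φ M A C f (true, false, false, true) a' (C x)
          + ∑ a' ∈ As 1, gf Φ M A C f (false, true, true, false) a' (C x)) /
            (((As 1).card : ℝ) + (As 1).card)
        - qV As (gf Φ M A C f) (true, false, false, true) (C x)) ^ 2 else 0 := by
    intro x hx
    by_cases hc : (M x).ctr
    · have hk := ctr_kap hc
      rw [if_pos hc, if_pos hc, ctr_sum hco f hx hk, ctr_card hco hx hk, avg_eq hco f hx]
      have e : qV As (gf Φ M A C f) (M x) (C x)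
          = qV As (gf Φ M A C f) (true, false, false, true) (C x) := by
        unfold qV
        rw [if_pos hk, if_pos (show Blk4.kap (true, false, false, true) = 1 from rfl)]
      rw [e]
    · rw [if_neg hc, if_neg hc]
  rw [Finset.sum_congr rfl pt]
  refine (dec6 hco (fun μ a c => if μ.ctr then
        ((∑ a' ∈ As 1, gf Φ M A C f (true, false, false, true) a' c
          + ∑ a' ∈ As 1, gf Φ M A C f (false, true, true, false) a' c) /
            (((As 1).card : ℝ) + (As 1).card)
        - qV As (gf Φ M A C f) (true, false, false, true) c) ^ 2 else 0)).trans ?_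
  simp [Blk4.ctr, Blk4.cp, Blk4.cm]
  ring

/-- the second Bad term of the fibre, in coordinates. -/
theorem badC_eq' (hco : Coords Φ ℓ ℓ' M A C 2 As Cs) (f : X → ℝ) :
    badC Φ ℓ' (fun x => (M x).ctr) f = 2 * ∑ a ∈ As 1, ∑ c ∈ Cs 1,
      ((∑ c' ∈ Cs 1, gf Φ M A C f (true, false, false, true) a c'
          + ∑ c' ∈ Cs 1, gf Φ M A C f (false, true, true, false) a c') /
            (((Cs 1).card : ℝ) + (Cs 1).card)
        - qH Cs (gf Φ M A C f) (true, false, false, true) a) ^ 2 := by
  unfold badC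
  rw [Finset.sum_filter]
  have pt : ∀ x ∈ Φ, (if (M x).ctr then
      ((∑ y ∈ (cls Φ ℓ' x).filter (fun y => (M y).ctr), f y) /
          (((cls Φ ℓ' x).filter (fun y => (M y).ctr)).card : ℝ) - avg Φ ℓ' f x) ^ 2 else 0) =
      if (M x).ctr then
        ((∑ c' ∈ Cs 1, gf Φ M A C f (true, false, false, true) (A x) c'
          + ∑ c' ∈ Cs 1, gf Φ M A C f (false, true, true, false) (A x) c') /
            (((Cs 1).card : ℝ) + (Cs 1).card)
        - qH Cs (gf Φ M A C f) (true, false, false, true) (A x)) ^ 2 else 0 := by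
    intro x hx
    by_cases hc : (M x).ctr
    · have hk := ctr_rho hc
      rw [if_pos hc, if_pos hc, ctr_sum' hco f hx hk, ctr_card' hco hx hk, avg_eq' hco f hx]
      have e : qH Cs (gf Φ M A C f) (M x) (A x)
          = qH Cs (gf Φ M A C f) (true, false, false, true) (A x) := by
        unfold qH
        rw [if_pos hk, if_pos (show Blk4.rho (true, false, false, true) = 1 from rfl)]
      rw [e]
    · rw [if_neg hc, if_neg hc]
  rw [Finset.sum_congr rfl pt]
  refine (dec6 hco (fun μ a c => if μ.ctr then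
        ((∑ c' ∈ Cs 1, gf Φ M A C f (true, false, false, true) a c'
          + ∑ c' ∈ Cs 1, gf Φ M A C f (false, true, true, false) a c') /
            (((Cs 1).card : ℝ) + (Cs 1).card)
        - qH Cs (gf Φ M A C f) (true, false, false, true) a) ^ 2 else 0)).trans ?_
  simp [Blk4.ctr, Blk4.cp, Blk4.cm]
  ring

/-- the product term of the fibre, in coordinates. -/
theorem rhs_eq (hco : Coords Φ ℓ ℓ' M A C 2 As Cs) (f : X → ℝ) :
    ∑ x ∈ Φ, (f x - avg Φ ℓ f x) * (f x - avg Φ ℓ' f x) =
      ∑ x ∈ Φ, (fun μ a c => (gf Φ M A C f μ a c - qV As (gf Φ M A C f) μ c) *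
        (gf Φ M A C f μ a c - qH Cs (gf Φ M A C f) μ a)) (M x) (A x) (C x) := by
  refine Finset.sum_congr rfl (fun x hx => ?_)
  simp only []
  rw [avg_eq hco f hx, avg_eq' hco f hx, gf_eq hco f hx]

theorem qV_congr (As : ℕ → Finset 𝒜) (g : Blk4 → 𝒜 → 𝒞 → ℝ) {μ ν : Blk4} (h : μ.kap = ν.kap)
    (c : 𝒞) : qV As g μ c = qV As g ν c := by
  unfold qV
  rw [h]

theorem qH_congr (Cs : ℕ → Finset 𝒞) (g : Blk4 → 𝒜 → 𝒞 → ℝ) {μ ν : Blk4} (h : μ.rho = ν.rho)
    (a : 𝒜) : qH Cs g μ a = qH Cs g ν a := by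
  unfold qH
  rw [h]

end Transport

/-- **(E2b) in helper17's transport form**: the two-pair lemma on a diamond fibre, from
helper89's `cross_ineq`. -/
theorem diaStmt : DiaStmt := by
  intro X L L' 𝒜 𝒞 _ _ _ _ Φ ℓ ℓ' M A C As Cs hco f
  rw [swC_eq hco f, badC_eq hco f, badC_eq' hco f, rhs_eq hco f]
  rw [dec6 hco (fun μ a c => (gf Φ M A C f μ a c - qV As (gf Φ M A C f) μ c) *
        (gf Φ M A C f μ a c - qH Cs (gf Φ M A C f) μ a))]
  generalize gf Φ M A C f = g
  have hcross := Crest.Agent.Helper89.SW.cross_ineq (As 1) ((As 2).disjSum (As 0)) (Cs 1)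
    ((Cs 2).disjSum (Cs 0))
    (fun s c => Sum.elim (fun a => g (true, true, false, false) a c)
      (fun a => g (false, false, true, true) a c) s)
    (fun a s => Sum.elim (fun c => g (true, false, true, false) a c)
      (fun c => g (false, true, false, true) a c) s)
    (g (true, false, false, true)) (g (false, true, true, false))
    (fun c => qV As g (true, false, false, true) c)
    (fun a => qH Cs g (true, false, false, true) a)
    (fun s => Sum.elim (fun a => qH Cs g (true, true, false, false) a)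
      (fun a => qH Cs g (false, false, true, true) a) s)
    (fun s => Sum.elim (fun c => qV As g (true, false, true, false) c)
      (fun c => qV As g (false, true, false, true) c) s)
    ?_ ?_ ?_ ?_
  · -- the main goal
    simp only [Finset.sum_disjSum, Sum.elim_inl, Sum.elim_inr, Finset.sum_add_distrib] at hcross
    simp only [qV_congr As g (show Blk4.kap (false, true, true, false)
          = Blk4.kap (true, false, false, true) from rfl),
      qV_congr As g (show Blk4.kap (true, true, false, false)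
          = Blk4.kap (true, false, false, true) from rfl),
      qV_congr As g (show Blk4.kap (false, false, true, true)
          = Blk4.kap (true, false, false, true) from rfl),
      qH_congr Cs g (show Blk4.rho (false, true, true, false)
          = Blk4.rho (true, false, false, true) from rfl),
      qH_congr Cs g (show Blk4.rho (true, false, true, false)
          = Blk4.rho (true, false, false, true) from rfl),
      qH_congr Cs g (show Blk4.rho (false, true, false, true)
          = Blk4.rho (true, false, false, true) from rfl),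
      ← two_mul, Finset.mul_sum]
    linarith
  · intro y _
    simp only [Finset.sum_disjSum, Finset.card_disjSum, Sum.elim_inl, Sum.elim_inr,
      Finset.sum_add_distrib, Nat.cast_add]
    unfold qV
    rw [if_pos (show Blk4.kap (true, false, false, true) = 1 from rfl)]
    congr 1 <;> ring
  · intro x _
    simp only [Finset.sum_disjSum, Finset.card_disjSum, Sum.elim_inl, Sum.elim_inr,
      Finset.sum_add_distrib, Nat.cast_add]
    unfold qH
    rw [if_pos (show Blk4.rho (true, false, false, true) = 1 from rfl)]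
    congr 1 <;> ring
  · rintro (a | a) _
    · simp only [Sum.elim_inl]
      unfold qH
      rw [if_neg (show ¬ Blk4.rho (true, true, false, false) = 1 by decide),
        if_pos (show Blk4.rho (true, true, false, false) = 2 from rfl)]
    · simp only [Sum.elim_inr]
      unfold qH
      rw [if_neg (show ¬ Blk4.rho (false, false, true, true) = 1 by decide),
        if_neg (show ¬ Blk4.rho (false, false, true, true) = 2 by decide)]
  · rintro (c | c) _
    · simp only [Sum.elim_inl]
      unfold qV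
      rw [if_neg (show ¬ Blk4.kap (true, false, true, false) = 1 by decide),
        if_pos (show Blk4.kap (true, false, true, false) = 2 from rfl)]
    · simp only [Sum.elim_inr]
      unfold qV
      rw [if_neg (show ¬ Blk4.kap (false, true, false, true) = 1 by decide),
        if_neg (show ¬ Blk4.kap (false, true, false, true) = 2 by decide)]

end Crest.Agent.Helper65.Dia

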